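import Vale.Agent.P231.Jacobi.Riccati

/-!
# P231 module Jacobi, third part: small times and the order of Riccati operators
-/

open Matrix Real Set Filter Topology
open scoped Matrix.Norms.Operator

namespace Vale.Agent.P231

variable {l k : ℕ} {S : JacobiSystem l k}

/-- near a positive definite matrix the quadratic forms are positive -/
theorem eventually_pos_form {n : ℕ} {α : Type*} {L : Filter α} {F : α → Mat n} {M : Mat n}
    (hF : Tendsto F L (𝓝 M)) (hM : ∀ v : Fin n → ℝ, v ≠ 0 → 0 < v ⬝ᵥ M *ᵥ v) :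
    ∀ᶠ a in L, ∀ v : Fin n → ℝ, v ≠ 0 → 0 < v ⬝ᵥ F a *ᵥ v := by
  have h : ∀ᶠ N in 𝓝 M, ∀ v ∈ Metric.sphere (0 : Fin n → ℝ) 1, 0 < v ⬝ᵥ N *ᵥ v := by
    refine (isCompact_sphere _ _).eventually_forall_of_forall_eventually fun v hv => ?_
    have hc : Continuous fun p : Mat n × (Fin n → ℝ) => p.2 ⬝ᵥ p.1 *ᵥ p.2 :=
      continuous_snd.dotProduct (continuous_fst.matrix_mulVec continuous_snd)
    refine (hc.tendsto (M, v)).eventually (lt_mem_nhds (hM v ?_))
    exact Metric.ne_of_mem_sphere hv one_ne_zero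
  filter_upwards [hF.eventually h] with a ha v hv
  have hn : 0 < ‖v‖ := norm_pos_iff.2 hv
  have := ha (‖v‖⁻¹ • v) (by simp [norm_smul, hn.ne'])
  rw [Matrix.mulVec_smul, dotProduct_smul, smul_dotProduct, smul_eq_mul, smul_eq_mul] at this
  exact pos_of_mul_pos_right (pos_of_mul_pos_right this (inv_nonneg.2 hn.le))
    (inv_nonneg.2 hn.le)

theorem posSemidef_of_tendsto {n : ℕ} {α : Type*} {L : Filter α} [L.NeBot] {F : α → Mat n}
    {M : Mat n} (hF : Tendsto F L (𝓝 M)) (hs : Mᵀ = M) (h : ∀ᶠ a in L, (F a).PosSemidef) :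
    M.PosSemidef := by
  refine PosSemidef.of_dotProduct_mulVec_nonneg ?_ fun v => ?_
  · rw [Matrix.IsHermitian, Matrix.conjTranspose_eq_transpose_of_trivial, hs]
  · have hc : Continuous fun N : Mat n => star v ⬝ᵥ N *ᵥ v :=
      continuous_const.dotProduct (continuous_id.matrix_mulVec continuous_const)
    exact ge_of_tendsto ((hc.tendsto M).comp hF) (h.mono fun a ha => ha.dotProduct_mulVec_nonneg v)

/-- a path of nonsingular symmetric matrices which starts positive ends nonnegative -/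
theorem posSemidef_end {n : ℕ} {F : ℝ → Mat n} (hc : ∀ s ∈ Ioc (0 : ℝ) 1, ContinuousAt F s)
    (hs : ∀ s ∈ Ioc (0 : ℝ) 1, (F s)ᵀ = F s) (hdet : ∀ s ∈ Ioo (0 : ℝ) 1, (F s).det ≠ 0)
    (h0 : ∀ᶠ s in 𝓝[>] (0 : ℝ), ∀ v : Fin n → ℝ, v ≠ 0 → 0 < v ⬝ᵥ F s *ᵥ v) :
    (F 1).PosSemidef := by
  set u := interior {s : ℝ | s ∈ Ioo (0 : ℝ) 1 ∧ (F s).PosSemidef} with hu
  have hin : ∀ s ∈ Ioo (0 : ℝ) 1, (F s).PosSemidef → s ∈ u := by
    intro s hs' hps
    refine mem_interior_iff_mem_nhds.2 ?_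
    have hpd := hps.posDef_iff_det_ne_zero.2 (hdet s hs')
    have hpos : ∀ v : Fin n → ℝ, v ≠ 0 → 0 < v ⬝ᵥ F s *ᵥ v := fun v hv => by
      simpa using hpd.dotProduct_mulVec_pos hv
    filter_upwards [eventually_pos_form (hc s ⟨hs'.1, hs'.2.le⟩) hpos,
      isOpen_Ioo.mem_nhds hs'] with r hr hr'
    refine ⟨hr', PosSemidef.of_dotProduct_mulVec_nonneg ?_ fun v => ?_⟩
    · rw [Matrix.IsHermitian, Matrix.conjTranspose_eq_transpose_of_trivial,
        hs r ⟨hr'.1, hr'.2.le⟩]
    · rcases eq_or_ne v 0 with rfl | hv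
      · simp
      · simpa using (hr v hv).le
  have hne : (Ioo (0 : ℝ) 1 ∩ u).Nonempty := by
    obtain ⟨s, hps, hs'⟩ :=
      (h0.and (Ioo_mem_nhdsGT zero_lt_one : ∀ᶠ s in 𝓝[>] (0 : ℝ), s ∈ Ioo (0 : ℝ) 1)).exists
    refine ⟨s, hs', hin s hs' (PosSemidef.of_dotProduct_mulVec_nonneg ?_ fun v => ?_)⟩
    · rw [Matrix.IsHermitian, Matrix.conjTranspose_eq_transpose_of_trivial,
        hs s ⟨hs'.1, hs'.2.le⟩]
    · rcases eq_or_ne v 0 with rfl | hv
      · simp
      · simpa using (hps v hv).le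
  have hsub : Ioo (0 : ℝ) 1 ⊆ u := by
    refine isPreconnected_Ioo.subset_of_closure_inter_subset isOpen_interior hne ?_
    rintro s ⟨hcl, hs'⟩
    refine hin s hs' ?_
    have : (𝓝[u] s).NeBot := mem_closure_iff_nhdsWithin_neBot.1 hcl
    exact posSemidef_of_tendsto ((hc s ⟨hs'.1, hs'.2.le⟩).mono_left nhdsWithin_le_nhds)
      (hs s ⟨hs'.1, hs'.2.le⟩) (eventually_of_mem self_mem_nhdsWithin fun r hr =>
        (interior_subset (s := {s : ℝ | s ∈ Ioo (0 : ℝ) 1 ∧ (F s).PosSemidef}) hr).2)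
  refine posSemidef_of_tendsto (L := 𝓝[<] (1 : ℝ))
    ((hc 1 ⟨zero_lt_one, le_rfl⟩).mono_left nhdsWithin_le_nhds) (hs 1 ⟨zero_lt_one, le_rfl⟩)
    (eventually_of_mem (Ioo_mem_nhdsLT zero_lt_one) fun r hr => (interior_subset (s := {s : ℝ | s ∈ Ioo (0 : ℝ) 1 ∧ (F s).PosSemidef}) (hsub hr)).2)

theorem near_zero_A' (S : JacobiSystem l k) (ε : ℝ) (hε : 0 < ε) :
    ∃ δ > (0 : ℝ), ∀ x s, |s| < δ → ∀ i j, |(S.A' x (x + s) - 1) i j| ≤ ε := by
  set φ : ℝ → ℝ → ℝ :=
    fun x s => ((S.A' x (x + s) - 1)ᵀ * (S.A' x (x + s) - 1)).trace with hφ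
  have hper : ∀ s, Function.Periodic (fun x => φ x s) π := by
    intro s x
    have e : S.A' (x + π) (x + π + s) - 1 = S.Q * (S.A' x (x + s) - 1) * S.Qᵀ := by
      rw [show x + π + s = x + s + π by ring, (periodic_pair S x (x + s)).2, Matrix.mul_sub,
        Matrix.sub_mul, Matrix.mul_one, Q_mul]
    simp only [hφ, e, Matrix.transpose_mul, Matrix.transpose_transpose]
    rw [show ∀ D : Mat (l + k), S.Q * (Dᵀ * S.Qᵀ) * (S.Q * D * S.Qᵀ)
        = S.Q * (Dᵀ * D) * S.Qᵀ from fun D => ?_]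
    · rw [Matrix.trace_mul_cycle, ← Matrix.mul_assoc, S.Q_orth, Matrix.one_mul]
    · simp only [Matrix.mul_assoc]
      rw [← Matrix.mul_assoc S.Qᵀ S.Q, S.Q_orth, Matrix.one_mul]
  have hc : Continuous fun p : ℝ × ℝ => φ p.2 p.1 := by
    have h1 : Continuous fun p : ℝ × ℝ => S.A' p.2 (p.2 + p.1) - 1 :=
      ((continuous_pair S).2.comp (continuous_snd.prodMk (continuous_snd.add continuous_fst))).sub
        continuous_const
    exact (h1.matrix_transpose.mul h1).matrix_trace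
  have hev : ∀ᶠ s in 𝓝 (0 : ℝ), ∀ x ∈ Icc (0 : ℝ) π, φ x s < ε ^ 2 := by
    refine isCompact_Icc.eventually_forall_of_forall_eventually fun x _ => ?_
    refine (hc.tendsto (0, x)).eventually (gt_mem_nhds ?_)
    simp [hφ, (S.init x).2]
    positivity
  obtain ⟨δ, hδ, hball⟩ := Metric.eventually_nhds_iff.1 hev
  refine ⟨δ, hδ, fun x s hs i j => abs_le_of_sq_le_sq ?_ hε.le⟩
  obtain ⟨y, hy, he⟩ := (hper s).exists_mem_Ico₀ Real.pi_pos x
  have h1 := hball (show dist s 0 < δ by simpa using hs) y (Ico_subset_Icc_self hy)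
  refine le_trans ?_ (he ▸ h1.le : φ x s ≤ ε ^ 2)
  simp only [hφ, Matrix.trace, Matrix.diag, Matrix.mul_apply, Matrix.transpose_apply, ← sq]
  exact (Finset.single_le_sum (fun a _ => sq_nonneg ((S.A' x (x + s) - 1) a j))
    (Finset.mem_univ i)).trans (Finset.single_le_sum (f := fun b => ∑ a,
      ((S.A' x (x + s) - 1) a b) ^ 2) (fun b _ => Finset.sum_nonneg fun a _ => sq_nonneg _)
      (Finset.mem_univ j))

theorem near_zero_A (S : JacobiSystem l k) (ε : ℝ) (hε : 0 < ε) :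
    ∃ δ > (0 : ℝ), ∀ x t, t ≠ 0 → |t| < δ →
      ∀ i j, |S.A x (x + t) i j / t - (1 : Mat (l + k)) i j| ≤ ε := by
  obtain ⟨δ, hδ, h⟩ := near_zero_A' S ε hε
  refine ⟨δ, hδ, fun x t ht htδ i j => ?_⟩
  have hd : ∀ s ∈ Metric.ball (0 : ℝ) δ,
      HasDerivWithinAt (fun r => S.A x (x + r) i j - r * (1 : Mat (l + k)) i j)
        ((S.A' x (x + s) - 1) i j) (Metric.ball 0 δ) s := fun s _ => by
    refine (((S.deriv_A x (x + s) i j).comp_const_add x s).fun_sub
      ((hasDerivAt_id s).mul_const _)).hasDerivWithinAt.congr_deriv ?_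
    simp
  have := (convex_ball (0 : ℝ) δ).norm_image_sub_le_of_norm_hasDerivWithin_le hd
    (fun s hs => h x s (by simpa [Metric.mem_ball] using hs) i j)
    (Metric.mem_ball_self hδ) (y := t) (by simpa [Metric.mem_ball] using htδ)
  simp only [add_zero, (S.init x).1, Matrix.zero_apply, zero_mul, sub_zero,
    Real.norm_eq_abs] at this
  rw [show S.A x (x + t) i j / t - (1 : Mat (l + k)) i j
      = (S.A x (x + t) i j - t * (1 : Mat (l + k)) i j) / t by field_simp, abs_div,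
    div_le_iff₀ (abs_pos.2 ht)]
  exact this

theorem tendsto_smul_ricc (S : JacobiSystem l k) (x τ : ℝ) (hτ : τ ≠ 0) :
    Tendsto (fun s => s • ricc S (x - s * τ) x) (𝓝[>] 0) (𝓝 (τ⁻¹ • (1 : Mat (l + k)))) := by
  have hh : Tendsto (fun s : ℝ => s * τ) (𝓝[>] 0) (𝓝 0) := by
    have : Continuous fun s : ℝ => s * τ := by fun_prop
    simpa using (this.tendsto 0).mono_left (nhdsWithin_le_nhds (s := Ioi 0))
  have hB : Tendsto (fun s => (s * τ)⁻¹ • S.A (x - s * τ) x) (𝓝[>] 0) (𝓝 1) := by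
    refine tendsto_pi_nhds.2 fun i => tendsto_pi_nhds.2 fun j => Metric.tendsto_nhds.2 fun ε hε => ?_
    obtain ⟨δ, hδ, h⟩ := near_zero_A S (ε / 2) (by positivity)
    filter_upwards [Metric.tendsto_nhds.1 hh δ hδ, self_mem_nhdsWithin] with s hs hs0
    have := h (x - s * τ) (s * τ) (mul_ne_zero (mem_Ioi.1 hs0).ne' hτ) (by simpa using hs) i j
    rw [sub_add_cancel] at this
    rw [Real.dist_eq, Matrix.smul_apply, smul_eq_mul, inv_mul_eq_div]
    linarith
  have hA' : Tendsto (fun s => S.A' (x - s * τ) x) (𝓝[>] 0) (𝓝 1) := by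
    have := ((continuous_pair S).2.tendsto (x, x)).comp
      (Tendsto.prodMk_nhds (by simpa using tendsto_const_nhds.sub hh) tendsto_const_nhds)
    simpa [(S.init x).2, Function.comp_def] using this
  have hinv : Tendsto (fun s => ((s * τ)⁻¹ • S.A (x - s * τ) x)⁻¹) (𝓝[>] 0) (𝓝 1) := by
    simp only [Matrix.nonsing_inv_eq_ringInverse]
    have := (NormedRing.inverse_continuousAt (1 : (Mat (l + k))ˣ)).tendsto.comp hB
    convert! this using 2
    simp
  have hl := (hA'.mul hinv).const_smul τ⁻¹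
  rw [Matrix.one_mul] at hl
  refine hl.congr' ?_
  have hsmall : ∀ᶠ s in 𝓝[>] (0 : ℝ), |s * τ| < π / 2 := by
    simpa using Metric.tendsto_nhds.1 hh (π / 2) (by positivity)
  filter_upwards [hsmall, self_mem_nhdsWithin] with s hs hs0
  have hne : s * τ ≠ 0 := mul_ne_zero (mem_Ioi.1 hs0).ne' hτ
  have hu : IsUnit (S.A (x - s * τ) x).det := by
    have := det_A_ne S (x - s * τ) (s * τ) hne (by linarith [Real.pi_pos]) hs.ne
    rw [sub_add_cancel] at this
    exact isUnit_iff_ne_zero.2 this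
  rw [Matrix.inv_eq_right_inv (A := (s * τ)⁻¹ • S.A (x - s * τ) x)
    (B := (s * τ) • (S.A (x - s * τ) x)⁻¹)
    (by rw [Matrix.smul_mul, Matrix.mul_smul, smul_smul, inv_mul_cancel₀ hne, one_smul,
      Matrix.mul_nonsing_inv _ hu]), Matrix.mul_smul, smul_smul, ricc]
  congr 1
  field_simp

theorem straddle_A (S : JacobiSystem l k) (x t : ℝ) (ht : 0 < t) (ht' : t < π / 2) :
    (ricc S (x - t) x - ricc S (x - t + π / 2) x).PosSemidef := by
  set r := π / 2 - t with hr
  have hr0 : 0 < r := by linarith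
  set F : ℝ → Mat (l + k) := fun s => ricc S (x - s * t) x - ricc S (x - s * -r) x with hF
  have hne : ∀ s ∈ Ioc (0 : ℝ) 1,
      (S.A (x - s * t) x).det ≠ 0 ∧ (S.A (x - s * -r) x).det ≠ 0 := by
    intro s hs
    have h1 : s * t ≤ t := mul_le_of_le_one_left ht.le hs.2
    have h2 : s * r ≤ r := mul_le_of_le_one_left hr0.le hs.2
    have p1 : 0 < s * t := mul_pos hs.1 ht
    have p2 : 0 < s * r := mul_pos hs.1 hr0
    constructor
    · have := det_A_ne S (x - s * t) (s * t) p1.ne' (by rw [abs_of_pos p1]; linarith)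
        (by rw [abs_of_pos p1]; exact (by linarith : s * t < π / 2).ne)
      rwa [sub_add_cancel] at this
    · have := det_A_ne S (x - s * -r) (s * -r) (by rw [mul_neg]; linarith)
        (by rw [mul_neg, abs_neg, abs_of_pos p2]; linarith)
        (by rw [mul_neg, abs_neg, abs_of_pos p2]; exact (by linarith : s * r < π / 2).ne)
      rwa [sub_add_cancel] at this
  have hF1 : F 1 = ricc S (x - t) x - ricc S (x - t + π / 2) x := by
    simp only [hF, one_mul, hr]
    congr 2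
    ring
  rw [← hF1]
  refine posSemidef_end (fun s hs => ?_) (fun s hs => ?_) (fun s hs => ?_) ?_
  · exact (continuousAt_ricc S (f := fun r => x - r * t) (g := fun _ => x) (by fun_prop) continuousAt_const
      (hne s hs).1).sub (continuousAt_ricc S (f := fun a => x - a * -r) (g := fun _ => x) (by fun_prop)
      continuousAt_const (hne s hs).2)
  · simp only [hF, Matrix.transpose_sub]
    rw [ricc_symm_A S _ _ (hne s hs).1, ricc_symm_A S _ _ (hne s hs).2]
  · obtain ⟨h1, h2⟩ := hne s ⟨hs.1, hs.2.le⟩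
    intro h0
    have e := congrArg Matrix.det (ricc_sub S (x - s * t) (x - s * -r) x h1 h2)
    simp only [hF] at h0
    rw [Matrix.det_mul, Matrix.det_mul, h0, mul_zero, zero_mul] at e
    have hsp : s * (π / 2) < π / 2 := mul_lt_of_lt_one_left (by positivity) hs.2
    have hp : 0 < s * (π / 2) := mul_pos hs.1 (by positivity)
    refine det_A_ne S (x - s * -r) (-(s * (π / 2))) (by linarith) ?_ ?_ ?_
    · rw [abs_neg, abs_of_pos hp]; linarith
    · rw [abs_neg, abs_of_pos hp]; exact hsp.ne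
    · rw [show x - s * -r + -(s * (π / 2)) = x - s * t by rw [hr]; ring]
      exact e.symm
  · have hl := (tendsto_smul_ricc S x t ht.ne').sub (tendsto_smul_ricc S x (-r) (by linarith))
    have hev := eventually_pos_form hl fun v hv => by
      rw [← sub_smul, Matrix.smul_mulVec, Matrix.one_mulVec, dotProduct_smul, smul_eq_mul]
      refine mul_pos ?_ ?_
      · rw [inv_neg, sub_neg_eq_add]; positivity
      · exact lt_of_le_of_ne (Finset.sum_nonneg fun i _ => mul_self_nonneg _)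
          (fun h => hv (dotProduct_self_eq_zero.1 h.symm))
    filter_upwards [hev, self_mem_nhdsWithin] with s hs hs0 v hv
    have := hs v hv
    rw [← smul_sub, Matrix.smul_mulVec, dotProduct_smul, smul_eq_mul] at this
    exact pos_of_mul_pos_right this (mem_Ioi.1 hs0).le

/-- `A₀ᵀ U_c A₀ - A₀ᵀ A₀'` is congruent to the difference of two Riccati operators at `c` -/
theorem side_identity (S : JacobiSystem l k) (a c x : ℝ) (hc : (S.A c x).det ≠ 0)
    (ha : (S.A a c).det ≠ 0) (hx : (S.A x c).det ≠ 0) :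
    (S.A a x)ᵀ * ricc S c x * S.A a x - (S.A a x)ᵀ * S.A' a x
      = (S.A a c)ᵀ * (ricc S a c - ricc S x c) * S.A a c := by
  have h1 := ricc_sub S a x c ha hx
  rw [swap_A S c x, swap_A S a x, Matrix.mul_neg, neg_inj] at h1
  have h2 := wronskian_self S c a x
  have h3 : (S.A c x)ᵀ * ricc S c x = (S.A' c x)ᵀ := by
    rw [← ricc_symm_A S c x hc, ← Matrix.transpose_mul, ricc, Matrix.mul_assoc,
      Matrix.nonsing_inv_mul _ (isUnit_iff_ne_zero.2 hc), Matrix.mul_one]
  have h4 : (S.A c x)ᵀ * (ricc S c x * S.A a x - S.A' a x) = S.A a c := by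
    rw [Matrix.mul_sub, ← Matrix.mul_assoc, h3, ← neg_sub, h2, neg_neg]
  calc (S.A a x)ᵀ * ricc S c x * S.A a x - (S.A a x)ᵀ * S.A' a x
      = (S.A a x)ᵀ * (ricc S c x * S.A a x - S.A' a x) := by
        rw [Matrix.mul_sub, Matrix.mul_assoc]
    _ = (S.A a c)ᵀ * (ricc S a c - ricc S x c) * (S.A c x)ᵀ
          * (ricc S c x * S.A a x - S.A' a x) := by rw [h1]
    _ = _ := by rw [Matrix.mul_assoc, h4]

theorem side_dets (S : JacobiSystem l k) (x c : ℝ) (h : x - π / 2 < c) (h' : c < x + π / 2)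
    (hcx : c ≠ x) : (S.A c x).det ≠ 0 ∧ (S.A (x - π / 2) c).det ≠ 0 ∧ (S.A x c).det ≠ 0 := by
  have habs : |x - c| < π / 2 := abs_lt.2 ⟨by linarith, by linarith⟩
  refine ⟨?_, ?_, ?_⟩
  · have := det_A_ne S c (x - c) (sub_ne_zero.2 hcx.symm) (by linarith [Real.pi_pos]) habs.ne
    rwa [add_sub_cancel] at this
  · have := det_A_ne S (x - π / 2) (c - (x - π / 2)) (by linarith)
      (by rw [abs_of_pos (by linarith)]; linarith)
      (by rw [abs_of_pos (by linarith)]; intro e; exact hcx (by linarith))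
    rwa [add_sub_cancel] at this
  · have := det_A_ne S x (c - x) (sub_ne_zero.2 hcx)
      (by rw [abs_sub_comm]; linarith [Real.pi_pos]) (by rw [abs_sub_comm]; exact habs.ne)
    rwa [add_sub_cancel] at this

theorem side_fwd_A (S : JacobiSystem l k) (x t : ℝ) (ht : 0 < t) (ht' : t < π / 2) :
    ((S.A (x - π / 2) x)ᵀ * ricc S (x - t) x * S.A (x - π / 2) x
      - (S.A (x - π / 2) x)ᵀ * S.A' (x - π / 2) x).PosSemidef := by
  obtain ⟨d1, d2, d3⟩ := side_dets S x (x - t) (by linarith) (by linarith) (by linarith)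
  rw [side_identity S _ _ _ d1 d2 d3]
  have h := straddle_A S (x - t) (π / 2 - t) (by linarith) (by linarith)
  rw [show x - t - (π / 2 - t) = x - π / 2 by ring, sub_add_cancel] at h
  simpa using h.conjTranspose_mul_mul_same (S.A (x - π / 2) (x - t))

theorem ricc_pi (S : JacobiSystem l k) (b y : ℝ) : ricc S b y = ricc S (b + π) y := by
  obtain ⟨h1, h2⟩ := agree_A S b (b + π) 1 (by simp [S.vanish_pi b]) y
  rw [Matrix.mul_one, Matrix.mul_one] at h1 h2
  rw [ricc, ricc, h1, h2, Matrix.mul_inv_rev, Matrix.mul_assoc,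
    ← Matrix.mul_assoc (S.A' b (b + π)), Matrix.mul_nonsing_inv _
      (isUnit_iff_ne_zero.2 (det_A'_pi S b)), Matrix.one_mul]

theorem side_bwd_A (S : JacobiSystem l k) (x t : ℝ) (ht : 0 < t) (ht' : t < π / 2) :
    ((S.A (x - π / 2) x)ᵀ * S.A' (x - π / 2) x
      - (S.A (x - π / 2) x)ᵀ * ricc S (x - t + π / 2) x * S.A (x - π / 2) x).PosSemidef := by
  obtain ⟨d1, d2, d3⟩ :=
    side_dets S x (x - t + π / 2) (by linarith) (by linarith) (by linarith)
  rw [← neg_sub, side_identity S _ _ _ d1 d2 d3, ricc_pi S (x - π / 2),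
    show x - π / 2 + π = x + π / 2 by ring]
  have h := straddle_A S (x - t + π / 2) (π / 2 - t) (by linarith) (by linarith)
  rw [show x - t + π / 2 - (π / 2 - t) = x by ring] at h
  have := h.conjTranspose_mul_mul_same (S.A (x - π / 2) (x - t + π / 2))
  rw [Matrix.conjTranspose_eq_transpose_of_trivial] at this
  rwa [← Matrix.neg_mul, ← Matrix.mul_neg, neg_sub]

/-- the Jacobi equation gives all pointwise facts -/
theorem jacobiFacts {l k : ℕ} (S : JacobiSystem l k) : JacobiFacts S where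
  cont_A := (continuous_pair S).1
  cont_A' := (continuous_pair S).2
  periodic_A a y := (periodic_pair S a y).1
  periodic_A' a y := (periodic_pair S a y).2
  swap := swap_A S
  wronskian := wronskian_self S
  agree a b P h y := (agree_A S a b P h y).1
  det_ne := det_A_ne S
  ricc_symm := ricc_symm_A S
  deriv_logAbsDet := deriv_logAbsDet_A S
  deriv_ricc := deriv_ricc_A S
  straddle_psd := straddle_A S
  side_fwd := side_fwd_A S
  side_bwd := side_bwd_A S
  near_zero := near_zero_A S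

end Vale.Agent.P231
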