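import Vale.Agent.P231.Facts

/-!
# P231 module Jacobi, first part: uniqueness, Wronskian, periodicity, continuity
-/

open Matrix Real Set Filter Topology
open scoped Matrix.Norms.Operator

namespace Vale.Agent.P231

variable {l k : ℕ} {S : JacobiSystem l k}

/-- a matrix valued solution of the Jacobi equation -/
def IsSol (S : JacobiSystem l k) (Y Y' : ℝ → Mat (l + k)) : Prop :=
  ∀ y, HasDerivAt Y (Y' y) y ∧ HasDerivAt Y' (-(S.R y * Y y)) y

theorem hasDerivAt_mat {n : ℕ} {f : ℝ → Mat n} {f' : Mat n} {y : ℝ}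
    (h : ∀ i j, HasDerivAt (fun z => f z i j) (f' i j) y) : HasDerivAt f f' y :=
  hasDerivAt_pi.2 fun i => hasDerivAt_pi.2 fun j => h i j

theorem isSol_A (S : JacobiSystem l k) (x : ℝ) : IsSol S (S.A x) (S.A' x) := fun y =>
  ⟨hasDerivAt_mat (S.deriv_A x y), hasDerivAt_mat (S.deriv_A' x y)⟩

theorem IsSol.mul_right {Y Y' : ℝ → Mat (l + k)} (h : IsSol S Y Y') (M : Mat (l + k)) :
    IsSol S (fun y => Y y * M) (fun y => Y' y * M) := fun y =>
  ⟨(h y).1.mul_const M, ((h y).2.mul_const M).congr_deriv (by rw [neg_mul, Matrix.mul_assoc])⟩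

theorem IsSol.add {Y Y' Z Z' : ℝ → Mat (l + k)} (h : IsSol S Y Y') (g : IsSol S Z Z') :
    IsSol S (fun y => Y y + Z y) (fun y => Y' y + Z' y) := fun y =>
  ⟨(h y).1.fun_add (g y).1, ((h y).2.fun_add (g y).2).congr_deriv (by rw [Matrix.mul_add, neg_add])⟩

theorem IsSol.eq {Y Y' Z Z' : ℝ → Mat (l + k)} (h : IsSol S Y Y') (g : IsSol S Z Z') {y₀ : ℝ}
    (h0 : Y y₀ = Z y₀) (h1 : Y' y₀ = Z' y₀) (y : ℝ) : Y y = Z y ∧ Y' y = Z' y := by
  set a := min y y₀ - 1 with ha
  set b := max y y₀ + 1 with hb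
  obtain ⟨K, hK⟩ := (isCompact_Icc (a := a) (b := b)).exists_bound_of_continuousOn
    S.R_cont.continuousOn
  set v : ℝ → Mat (l + k) × Mat (l + k) → Mat (l + k) × Mat (l + k) :=
    fun t p => (p.2, -(S.R t * p.1)) with hv
  have hlip : ∀ t ∈ Ioo a b, LipschitzOnWith (Real.toNNReal (max 1 K)) (v t) univ := by
    intro t ht
    refine lipschitzOnWith_iff_norm_sub_le.2 fun p _ q _ => ?_
    have hKt := hK t (Ioo_subset_Icc_self ht)
    rw [Real.coe_toNNReal _ (zero_le_one.trans (le_max_left _ _))]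
    simp only [hv, Prod.mk_sub_mk, neg_sub_neg, ← Matrix.mul_sub, Prod.norm_def]
    refine max_le ?_ ?_
    · exact (le_max_right _ _).trans
        (le_mul_of_one_le_left (le_max_of_le_left (norm_nonneg _)) (le_max_left _ _))
    · refine (norm_mul_le _ _).trans (mul_le_mul (hKt.trans (le_max_right _ _)) ?_ (norm_nonneg _)
        (zero_le_one.trans (le_max_left _ _)))
      exact (norm_sub_rev q.1 p.1).le.trans (le_max_left _ _)
  have hy0 : y₀ ∈ Ioo a b := ⟨by rw [ha]; linarith [min_le_right y y₀],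
    by rw [hb]; linarith [le_max_right y y₀]⟩
  have hy : y ∈ Ioo a b := ⟨by rw [ha]; linarith [min_le_left y y₀],
    by rw [hb]; linarith [le_max_left y y₀]⟩
  have := ODE_solution_unique_of_mem_Ioo (f := fun t => (Y t, Y' t)) (g := fun t => (Z t, Z' t))
    (s := fun _ => univ) hlip hy0 (fun t _ => ⟨(h t).1.prodMk (h t).2, mem_univ _⟩)
    (fun t _ => ⟨(g t).1.prodMk (g t).2, mem_univ _⟩) (by rw [h0, h1]) hy
  exact Prod.ext_iff.1 this

theorem wronskian_const {Y Y' Z Z' : ℝ → Mat (l + k)} (h : IsSol S Y Y') (g : IsSol S Z Z')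
    (y z : ℝ) : (Y y)ᵀ * Z' y - (Y' y)ᵀ * Z y = (Y z)ᵀ * Z' z - (Y' z)ᵀ * Z z := by
  have ht : ∀ {f : ℝ → Mat (l + k)} {f' : Mat (l + k)} {x : ℝ},
      HasDerivAt f f' x → HasDerivAt (fun r => (f r)ᵀ) f'ᵀ x := fun hf =>
    hasDerivAt_mat fun i j => hasDerivAt_pi.1 (hasDerivAt_pi.1 hf j) i
  have hd : ∀ x, HasDerivAt (fun r => (Y r)ᵀ * Z' r - (Y' r)ᵀ * Z r) 0 x := fun x => by
    refine (((ht (h x).1).fun_mul (g x).2).fun_sub ((ht (h x).2).fun_mul (g x).1)).congr_deriv ?_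
    rw [Matrix.transpose_neg, Matrix.transpose_mul, S.R_symm x, neg_mul, Matrix.mul_neg,
      Matrix.mul_assoc]
    abel
  exact is_const_of_deriv_eq_zero (fun x => (hd x).differentiableAt) (fun x => (hd x).deriv) y z

theorem wronskian_self (S : JacobiSystem l k) (a b y : ℝ) :
    (S.A a y)ᵀ * S.A' b y - (S.A' a y)ᵀ * S.A b y = -S.A b a := by
  rw [wronskian_const (isSol_A S a) (isSol_A S b) y a, (S.init a).1, (S.init a).2]
  simp

theorem swap_A (S : JacobiSystem l k) (a b : ℝ) : S.A b a = -(S.A a b)ᵀ := by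
  have h := wronskian_self S a b b
  rw [(S.init b).1, (S.init b).2, Matrix.mul_one, Matrix.mul_zero, sub_zero] at h
  rw [h, neg_neg]

theorem agree_A (S : JacobiSystem l k) (a b : ℝ) (P : Mat (l + k)) (h : S.A a b * P = 0) (y : ℝ) :
    S.A a y * P = S.A b y * (S.A' a b * P) ∧
      S.A' a y * P = S.A' b y * (S.A' a b * P) := by
  refine IsSol.eq ((isSol_A S a).mul_right P) ((isSol_A S b).mul_right _) (y₀ := b) ?_ ?_ y
  · simp [h, (S.init b).1]
  · simp [(S.init b).2]

theorem Q_mul (S : JacobiSystem l k) : S.Q * S.Qᵀ = 1 :=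
  mul_eq_one_comm.1 S.Q_orth

theorem periodic_pair (S : JacobiSystem l k) (a y : ℝ) :
    S.A (a + π) (y + π) = S.Q * S.A a y * S.Qᵀ ∧
      S.A' (a + π) (y + π) = S.Q * S.A' a y * S.Qᵀ := by
  have hsol : IsSol S (fun z => S.Qᵀ * S.A (a + π) (z + π) * S.Q)
      (fun z => S.Qᵀ * S.A' (a + π) (z + π) * S.Q) := fun z => by
    obtain ⟨h1, h2⟩ := isSol_A S (a + π) (z + π)
    refine ⟨((h1.comp_add_const z π).const_mul S.Qᵀ).mul_const S.Q,
      (((h2.comp_add_const z π).const_mul S.Qᵀ).mul_const S.Q).congr_deriv ?_⟩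
    rw [S.R_twist z]
    simp only [Matrix.mul_neg, Matrix.neg_mul, Matrix.mul_assoc]
    congr 1
    rw [← Matrix.mul_assoc S.Qᵀ S.Q, S.Q_orth, Matrix.one_mul]
  obtain ⟨e1, e2⟩ := hsol.eq (isSol_A S a) (y₀ := a)
    (by simp [(S.init (a + π)).1, (S.init a).1])
    (by simp [(S.init (a + π)).2, (S.init a).2, S.Q_orth]) y
  have key : ∀ M : Mat (l + k), S.Q * (S.Qᵀ * M * S.Q) * S.Qᵀ = M := fun M => by
    rw [Matrix.mul_assoc S.Qᵀ M, ← Matrix.mul_assoc S.Q, Q_mul, Matrix.one_mul, Matrix.mul_assoc,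
      Q_mul, Matrix.mul_one]
  exact ⟨by rw [← e1, key], by rw [← e2, key]⟩

theorem det_A'_pi (S : JacobiSystem l k) (x : ℝ) : (S.A' x (x + π)).det ≠ 0 := by
  have h := (agree_A S x (x + π) 1 (by simp [S.vanish_pi x]) x).2
  rw [(S.init x).2, Matrix.mul_one, Matrix.mul_one] at h
  have := congrArg Matrix.det h
  rw [Matrix.det_mul, Matrix.det_one] at this
  intro h0
  simp [h0] at this

theorem det_A_ne (S : JacobiSystem l k) (x t : ℝ) (h0 : t ≠ 0) (hπ : |t| < π)
    (hh : |t| ≠ π / 2) : (S.A x (x + t)).det ≠ 0 := by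
  have hneg : ∀ x t, 0 < t → (S.A x (x + t)).det ≠ 0 → (S.A (x + t) x).det ≠ 0 :=
    fun x t _ h => by
      rw [swap_A S x (x + t), Matrix.det_neg, Matrix.det_transpose]
      exact mul_ne_zero (pow_ne_zero _ (by norm_num)) h
  have hpos : ∀ x t, 0 < t → t < π → t ≠ π / 2 → (S.A x (x + t)).det ≠ 0 := by
    intro x t ht htπ hth
    rcases hth.lt_or_gt with h | h
    · exact S.no_conj x t ht h
    · have e := (agree_A S x (x + π) 1 (by simp [S.vanish_pi x]) (x + t)).1
      rw [Matrix.mul_one, Matrix.mul_one] at e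
      rw [e, Matrix.det_mul]
      refine mul_ne_zero ?_ (det_A'_pi S x)
      have := hneg (x + t) (π - t) (by linarith) (S.no_conj _ _ (by linarith) (by linarith))
      rwa [show x + t + (π - t) = x + π by ring] at this
  rcases h0.lt_or_gt with h | h
  · rw [abs_of_neg h] at hπ hh
    have := hneg (x + t) (-t) (by linarith) (hpos _ _ (by linarith) hπ hh)
    rwa [show x + t + -t = x by ring] at this
  · rw [abs_of_pos h] at hπ hh
    exact hpos x t h hπ hh

/-- every solution is a combination of the solutions based at `0` and `-π/4` -/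
theorem repr_A (S : JacobiSystem l k) (b y : ℝ) :
    S.A b y = S.A 0 y * (S.A' b 0 - S.A' (-(π / 4)) 0 * ((S.A (-(π / 4)) 0)⁻¹ * S.A b 0))
        + S.A (-(π / 4)) y * ((S.A (-(π / 4)) 0)⁻¹ * S.A b 0) ∧
    S.A' b y = S.A' 0 y * (S.A' b 0 - S.A' (-(π / 4)) 0 * ((S.A (-(π / 4)) 0)⁻¹ * S.A b 0))
        + S.A' (-(π / 4)) y * ((S.A (-(π / 4)) 0)⁻¹ * S.A b 0) := by
  have hdet : IsUnit (S.A (-(π / 4)) 0).det := by
    have h := S.no_conj (-(π / 4)) (π / 4) (by positivity) (by linarith [Real.pi_pos])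
    rw [neg_add_cancel] at h
    exact isUnit_iff_ne_zero.2 h
  refine IsSol.eq (isSol_A S b) (((isSol_A S 0).mul_right _).add ((isSol_A S _).mul_right _))
    (y₀ := 0) ?_ ?_ y
  · simp only [(S.init 0).1, Matrix.zero_mul, zero_add]
    rw [← Matrix.mul_assoc, Matrix.mul_nonsing_inv _ hdet, Matrix.one_mul]
  · simp only [(S.init 0).2, Matrix.one_mul]
    abel

theorem repr_init (S : JacobiSystem l k) (b : ℝ) :
    S.A b 0 = -(S.A 0 b)ᵀ ∧ S.A' b 0 = ((S.A (-(π / 4)) 0)ᵀ)⁻¹ *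
      ((S.A (-(π / 4)) b)ᵀ + (S.A' (-(π / 4)) 0)ᵀ * -(S.A 0 b)ᵀ) := by
  have hdet : IsUnit ((S.A (-(π / 4)) 0)ᵀ).det := by
    have h := S.no_conj (-(π / 4)) (π / 4) (by positivity) (by linarith [Real.pi_pos])
    rw [neg_add_cancel] at h
    rw [Matrix.det_transpose]
    exact isUnit_iff_ne_zero.2 h
  refine ⟨swap_A S 0 b, ?_⟩
  have h := wronskian_self S (-(π / 4)) b 0
  rw [swap_A S (-(π / 4)) b, neg_neg, sub_eq_iff_eq_add, swap_A S 0 b] at h
  rw [← h, ← Matrix.mul_assoc, Matrix.nonsing_inv_mul _ hdet, Matrix.one_mul]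

/-- the Jacobi solutions are differentiable in the base point -/
theorem differentiableAt_base (S : JacobiSystem l k) (b y : ℝ) :
    DifferentiableAt ℝ (fun c => S.A c y) b ∧ DifferentiableAt ℝ (fun c => S.A' c y) b := by
  have ht : ∀ a, DifferentiableAt ℝ (fun c => (S.A a c)ᵀ) b := fun a =>
    (hasDerivAt_mat (f := fun c => (S.A a c)ᵀ) (f' := (S.A' a b)ᵀ)
      fun i j => S.deriv_A a b j i).differentiableAt
  have h0 : DifferentiableAt ℝ (fun c => S.A c 0) b := by
    rw [funext fun c => (repr_init S c).1]; exact (ht 0).neg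
  have h1 : DifferentiableAt ℝ (fun c => S.A' c 0) b := by
    rw [funext fun c => (repr_init S c).2]
    exact ((ht _).add ((ht 0).neg.const_mul _)).const_mul _
  constructor
  · rw [funext fun c => (repr_A S c y).1]
    exact ((h1.sub ((h0.const_mul _).const_mul _)).const_mul _).add
      ((h0.const_mul _).const_mul _)
  · rw [funext fun c => (repr_A S c y).2]
    exact ((h1.sub ((h0.const_mul _).const_mul _)).const_mul _).add
      ((h0.const_mul _).const_mul _)

theorem continuous_pair (S : JacobiSystem l k) :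
    (Continuous fun p : ℝ × ℝ => S.A p.1 p.2) ∧ Continuous fun p : ℝ × ℝ => S.A' p.1 p.2 := by
  have hy : ∀ a, Continuous (S.A a) ∧ Continuous (S.A' a) := fun a =>
    ⟨continuous_iff_continuousAt.2 fun y => (isSol_A S a y).1.continuousAt,
      continuous_iff_continuousAt.2 fun y => (isSol_A S a y).2.continuousAt⟩
  have hb : Continuous fun c => S.A c 0 :=
    continuous_iff_continuousAt.2 fun b => (differentiableAt_base S b 0).1.continuousAt
  have hb' : Continuous fun c => S.A' c 0 :=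
    continuous_iff_continuousAt.2 fun b => (differentiableAt_base S b 0).2.continuousAt
  have hN : Continuous fun p : ℝ × ℝ => (S.A (-(π / 4)) 0)⁻¹ * S.A p.1 0 :=
    continuous_const.mul (hb.comp continuous_fst)
  have hM : Continuous fun p : ℝ × ℝ =>
      S.A' p.1 0 - S.A' (-(π / 4)) 0 * ((S.A (-(π / 4)) 0)⁻¹ * S.A p.1 0) :=
    (hb'.comp continuous_fst).sub (continuous_const.mul hN)
  constructor
  · rw [funext fun p : ℝ × ℝ => (repr_A S p.1 p.2).1]
    exact (((hy 0).1.comp continuous_snd).mul hM).add (((hy _).1.comp continuous_snd).mul hN)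
  · rw [funext fun p : ℝ × ℝ => (repr_A S p.1 p.2).2]
    exact (((hy 0).2.comp continuous_snd).mul hM).add (((hy _).2.comp continuous_snd).mul hN)

end Vale.Agent.P231
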