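import Vale.Agent.P231.Jacobi.Basic

/-!
# P231 module Jacobi, second part: the Riccati operator and its derivatives
-/

open Matrix Real Set Filter Topology
open scoped Matrix.Norms.Operator

namespace Vale.Agent.P231

variable {l k : ℕ} {S : JacobiSystem l k}

theorem hasDerivAt_entry {n : ℕ} {f : ℝ → Mat n} {f' : Mat n} {y : ℝ} (h : HasDerivAt f f' y)
    (i j : Fin n) : HasDerivAt (fun z => f z i j) (f' i j) y :=
  hasDerivAt_pi.1 (hasDerivAt_pi.1 h i) j

theorem hasDerivAt_det_one {n : ℕ} {f : ℝ → Mat n} {f' : Mat n} {y : ℝ} (h : HasDerivAt f f' y)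
    (h1 : f y = 1) : HasDerivAt (fun z => (f z).det) f'.trace y := by
  have hd : HasDerivAt (fun z => ∑ σ : Equiv.Perm (Fin n), ((Equiv.Perm.sign σ : ℤ) : ℝ) *
      ∏ i, f z (σ i) i) (∑ σ : Equiv.Perm (Fin n), ((Equiv.Perm.sign σ : ℤ) : ℝ) *
        ∑ i, (∏ j ∈ Finset.univ.erase i, f y (σ j) j) • f' (σ i) i) y := by
    refine HasDerivAt.fun_sum fun σ _ => ?_
    exact (HasDerivAt.fun_finsetProd fun i _ => hasDerivAt_entry h (σ i) i).const_mul _
  simp only [← Matrix.det_apply'] at hd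
  refine hd.congr_deriv ?_
  rw [Finset.sum_eq_single (1 : Equiv.Perm (Fin n))]
  · simp [h1, Matrix.trace]
  · intro σ _ hσ
    refine mul_eq_zero_of_right _ (Finset.sum_eq_zero fun i _ => ?_)
    obtain ⟨a, ha⟩ : ∃ a, σ a ≠ a := by
      by_contra hc
      push Not at hc
      exact hσ (Equiv.ext fun a => by simp [hc a])
    -- two off-diagonal entries
    obtain ⟨c, hci, hcc⟩ : ∃ c, c ≠ i ∧ σ c ≠ c := by
      by_cases hai : a = i
      · refine ⟨σ a, fun he => ha (he.trans hai.symm), fun he => ha (σ.injective he)⟩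
      · exact ⟨a, hai, ha⟩
    rw [Finset.prod_eq_zero (Finset.mem_erase.2 ⟨hci, Finset.mem_univ _⟩)
      (by rw [h1, Matrix.one_apply_ne hcc]), zero_smul]
  · simp

theorem hasDerivAt_det {n : ℕ} {f : ℝ → Mat n} {f' : Mat n} {y : ℝ} (h : HasDerivAt f f' y)
    (h0 : (f y).det ≠ 0) :
    HasDerivAt (fun z => (f z).det) ((f y).det * ((f y)⁻¹ * f').trace) y := by
  have hu : IsUnit (f y).det := isUnit_iff_ne_zero.2 h0
  have h1 := (hasDerivAt_det_one (h.const_mul (f y)⁻¹) (Matrix.nonsing_inv_mul _ hu)).const_mul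
    (f y).det
  refine h1.congr_of_eventuallyEq (Filter.Eventually.of_forall fun z => ?_)
  show (f z).det = (f y).det * ((f y)⁻¹ * f z).det
  rw [← Matrix.det_mul, ← Matrix.mul_assoc, Matrix.mul_nonsing_inv _ hu, Matrix.one_mul]

theorem deriv_logAbsDet_A (S : JacobiSystem l k) (b y : ℝ) (h : (S.A b y).det ≠ 0) :
    HasDerivAt (fun z => logAbsDet (S.A b z)) (ricc S b y).trace y := by
  have hd := (hasDerivAt_det (isSol_A S b y).1 h).log h
  refine (hd.congr_of_eventuallyEq (Filter.Eventually.of_forall fun z => ?_)).congr_deriv ?_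
  · simp [logAbsDet, Real.log_abs]
  · rw [mul_div_cancel_left₀ _ h, ricc, Matrix.trace_mul_comm]

theorem ricc_symm_A (S : JacobiSystem l k) (b y : ℝ) (h : (S.A b y).det ≠ 0) :
    (ricc S b y)ᵀ = ricc S b y := by
  have hu : IsUnit (S.A b y).det := isUnit_iff_ne_zero.2 h
  have hut : IsUnit ((S.A b y)ᵀ).det := by rwa [Matrix.det_transpose]
  have hw := wronskian_self S b b y
  rw [(S.init b).1, neg_zero, sub_eq_zero] at hw
  rw [ricc, Matrix.transpose_mul, Matrix.transpose_nonsing_inv]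
  calc ((S.A b y)ᵀ)⁻¹ * (S.A' b y)ᵀ
      = ((S.A b y)ᵀ)⁻¹ * ((S.A' b y)ᵀ * S.A b y) * (S.A b y)⁻¹ := by
        rw [Matrix.mul_assoc, Matrix.mul_assoc, Matrix.mul_nonsing_inv _ hu, Matrix.mul_one]
    _ = S.A' b y * (S.A b y)⁻¹ := by
        rw [← hw, ← Matrix.mul_assoc, Matrix.nonsing_inv_mul _ hut, Matrix.one_mul]

theorem ricc_sub (S : JacobiSystem l k) (a b y : ℝ) (ha : (S.A a y).det ≠ 0)
    (hb : (S.A b y).det ≠ 0) :
    (S.A a y)ᵀ * (ricc S a y - ricc S b y) * S.A b y = S.A b a := by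
  have e1 : ricc S b y * S.A b y = S.A' b y := by
    rw [ricc, Matrix.mul_assoc, Matrix.nonsing_inv_mul _ (isUnit_iff_ne_zero.2 hb), Matrix.mul_one]
  have e2 : (S.A a y)ᵀ * ricc S a y = (S.A' a y)ᵀ := by
    rw [← ricc_symm_A S a y ha, ← Matrix.transpose_mul, ricc, Matrix.mul_assoc,
      Matrix.nonsing_inv_mul _ (isUnit_iff_ne_zero.2 ha), Matrix.mul_one]
  rw [Matrix.mul_sub, Matrix.sub_mul, Matrix.mul_assoc _ (ricc S b y), e1, e2, ← neg_sub,
    wronskian_self, neg_neg]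

/-- continuity of the Riccati operator -/
theorem continuousAt_ricc (S : JacobiSystem l k) {f g : ℝ → ℝ} {s : ℝ} (hf : ContinuousAt f s)
    (hg : ContinuousAt g s) (h : (S.A (f s) (g s)).det ≠ 0) :
    ContinuousAt (fun r => ricc S (f r) (g r)) s := by
  have hA : ContinuousAt (fun r => S.A (f r) (g r)) s :=
    ((continuous_pair S).1.tendsto _).comp (hf.prodMk_nhds hg)
  have hA' : ContinuousAt (fun r => S.A' (f r) (g r)) s :=
    ((continuous_pair S).2.tendsto _).comp (hf.prodMk_nhds hg)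
  obtain ⟨u, hu⟩ := (Matrix.isUnit_iff_isUnit_det _).2 (isUnit_iff_ne_zero.2 h)
  refine hA'.mul ?_
  simp only [Matrix.nonsing_inv_eq_ringInverse]
  refine ContinuousAt.comp (g := Ring.inverse) ?_ hA
  rw [← hu]
  exact NormedRing.inverse_continuousAt u

theorem deriv_ricc_A (S : JacobiSystem l k) (b y : ℝ) (h : (S.A b y).det ≠ 0) :
    HasDerivAt (fun c => (ricc S c y).trace) (invGram (S.A b y)) b := by
  have hu : IsUnit (S.A b y).det := isUnit_iff_ne_zero.2 h
  have hut : IsUnit ((S.A b y)ᵀ).det := by rwa [Matrix.det_transpose]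
  obtain ⟨u, hu'⟩ := (Matrix.isUnit_iff_isUnit_det _).2 hu
  set P := deriv (fun c => S.A c y) b
  set P' := deriv (fun c => S.A' c y) b
  have hP : HasDerivAt (fun c => S.A c y) P b := (differentiableAt_base S b y).1.hasDerivAt
  have hP' : HasDerivAt (fun c => S.A' c y) P' b := (differentiableAt_base S b y).2.hasDerivAt
  have hinv : HasDerivAt (fun c => (S.A c y)⁻¹) (-((S.A b y)⁻¹ * P * (S.A b y)⁻¹)) b := by
    simp only [Matrix.nonsing_inv_eq_ringInverse]
    have hi := hasFDerivAt_ringInverse (𝕜 := ℝ) u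
    rw [hu'] at hi
    refine (hi.comp_hasDerivAt (f := fun c => S.A c y) b hP).congr_deriv ?_
    simp [← hu']
  have hW : (S.A b y)ᵀ * P' - (S.A' b y)ᵀ * P = 1 := by
    have h1 : HasDerivAt (fun c => (S.A b y)ᵀ * S.A' c y - (S.A' b y)ᵀ * S.A c y)
        ((S.A b y)ᵀ * P' - (S.A' b y)ᵀ * P) b := (hP'.const_mul _).fun_sub (hP.const_mul _)
    have h2 : HasDerivAt (fun c => (S.A b c)ᵀ) (S.A' b b)ᵀ b :=
      hasDerivAt_mat fun i j => S.deriv_A b b j i
    rw [(S.init b).2, Matrix.transpose_one] at h2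
    refine h1.unique (h2.congr_of_eventuallyEq (Filter.Eventually.of_forall fun c => ?_))
    show (S.A b y)ᵀ * S.A' c y - (S.A' b y)ᵀ * S.A c y = (S.A b c)ᵀ
    rw [wronskian_self, swap_A S b c, neg_neg]
  set U := ricc S b y with hU
  have hUA : (S.A b y)ᵀ * U = (S.A' b y)ᵀ := by
    rw [hU, ← ricc_symm_A S b y h, ← Matrix.transpose_mul, ricc, Matrix.mul_assoc,
      Matrix.nonsing_inv_mul _ hu, Matrix.mul_one]
  have hkey : P' - U * P = ((S.A b y)ᵀ)⁻¹ := by
    have hx : (S.A b y)ᵀ * (P' - U * P) = 1 := by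
      rw [Matrix.mul_sub, ← Matrix.mul_assoc, hUA, hW]
    calc P' - U * P = ((S.A b y)ᵀ)⁻¹ * ((S.A b y)ᵀ * (P' - U * P)) := by
          rw [← Matrix.mul_assoc, Matrix.nonsing_inv_mul _ hut, Matrix.one_mul]
      _ = _ := by rw [hx, Matrix.mul_one]
  have hd : HasDerivAt (fun c => ricc S c y) ((P' - U * P) * (S.A b y)⁻¹) b := by
    refine (hP'.fun_mul hinv).congr_deriv ?_
    rw [hU, ricc]
    noncomm_ring
  rw [hkey, ← Matrix.mul_inv_rev] at hd
  have htr : HasDerivAt (fun c => (ricc S c y).trace) (S.A b y * (S.A b y)ᵀ)⁻¹.trace b := by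
    simp only [Matrix.trace]
    exact HasDerivAt.fun_sum fun i _ => hasDerivAt_entry hd i i
  refine htr.congr_deriv ?_
  rw [invGram, Matrix.mul_inv_rev, Matrix.mul_inv_rev, Matrix.trace_mul_comm]

end Vale.Agent.P231
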